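import Mathlib
import Vale.Agent.P264.Defs

/-!
Interface between the two halves of the shrinker: the certified connection on `[0, 64]` (Soliton A)
and the tail on `[64, oo)` (Soliton B).

With `u = q - c` the shrinker equation is
`y u''' + 17 u'' + 56 u' / y - 56 u / y^2 + u / (2 c^2) = -56 (1 - c) / y^2 + u^2 / (2 c^2 q)`.
`tailPoly` solves the linear equation exactly. In `s = y^(2/3)`, `w = s^8 (u - tailPoly)` the rest
is `w''' - (215/4) w' / s^2 - 95 w / s^3 + (27/16) w / c^2 = (27/8) s^8 u^2 / (2 c^2 q)`, whose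
solutions of polynomial growth form a one-parameter family, parametrised here by
`a = (u - tailPoly) 64`.
-/

namespace Vale.Agent.P264.Soliton

open Set
open scoped ContDiff

/-- The shrinker equation in explicit third order form. -/
noncomputable def ode (c : ℝ) (q : ℝ → ℝ) (y : ℝ) : ℝ :=
  y * deriv (deriv (deriv q)) y + 17 * deriv (deriv q) y + 56 * deriv q y / y
    + 56 * (1 - q y) / y ^ 2 + (1 / (2 * c) - 1 / (2 * q y))

noncomputable def coef1 (c : ℝ) : ℝ := -112 * c ^ 2 * (1 - c)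
noncomputable def coef2 (c : ℝ) : ℝ := 180 * c ^ 2 * coef1 c
noncomputable def coef3 (c : ℝ) : ℝ := 120 * c ^ 2 * coef2 c
noncomputable def coef4 (c : ℝ) : ℝ := 28 * c ^ 2 * coef3 c

/-- The exact particular solution of the linearised tail equation. -/
noncomputable def tailPoly (c y : ℝ) : ℝ :=
  coef1 c / y ^ 2 + coef2 c / y ^ 4 + coef3 c / y ^ 6 + coef4 c / y ^ 8

noncomputable def tailPoly1 (c y : ℝ) : ℝ :=
  -(2 * coef1 c / y ^ 3 + 4 * coef2 c / y ^ 5 + 6 * coef3 c / y ^ 7 + 8 * coef4 c / y ^ 9)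

noncomputable def tailPoly2 (c y : ℝ) : ℝ :=
  6 * coef1 c / y ^ 4 + 20 * coef2 c / y ^ 6 + 42 * coef3 c / y ^ 8 + 72 * coef4 c / y ^ 10

/-- Admissible limits of `q`. -/
def cSet : Set ℝ := Icc (998 / 1000) (9995 / 10000)

/-- Admissible values of the tail parameter. -/
def aSet : Set ℝ := Icc (-(1 / 1000000)) (1 / 1000000)

/-- `u' - tailPoly1 = -slope1 * a + e1` at `y = 64`. -/
noncomputable def slope1 : ℝ := 698 / 2400

/-- `u'' - tailPoly2 = slope2 * a + e2` at `y = 64`. -/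
noncomputable def slope2 : ℝ :=
  ((249 / 200) ^ 2 * 256 - 56 + 1584 * slope1) / 9216

/-- The one-parameter family of tails with its boundary data at `y = 64`. -/
structure TailMap where
  q : ℝ → ℝ → ℝ → ℝ
  e1 : ℝ → ℝ → ℝ
  e2 : ℝ → ℝ → ℝ
  smooth : ∀ c ∈ cSet, ∀ a ∈ aSet, ContDiffOn ℝ ∞ (q c a) (Ici 64)
  value : ∀ c ∈ cSet, ∀ a ∈ aSet, q c a 64 = c + tailPoly c 64 + a
  deriv_one : ∀ c ∈ cSet, ∀ a ∈ aSet,
    derivWithin (q c a) (Ici 64) 64 = tailPoly1 c 64 - slope1 * a + e1 c a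
  deriv_two : ∀ c ∈ cSet, ∀ a ∈ aSet,
    derivWithin (derivWithin (q c a) (Ici 64)) (Ici 64) 64 = tailPoly2 c 64 + slope2 * a + e2 c a
  eqn : ∀ c ∈ cSet, ∀ a ∈ aSet, ∀ y, 64 < y → ode c (q c a) y = 0
  lower : ∀ c ∈ cSet, ∀ a ∈ aSet, ∀ y, 64 ≤ y → 99 / 100 ≤ q c a y
  lim : ∀ c ∈ cSet, ∀ a ∈ aSet, Filter.Tendsto (q c a) Filter.atTop (nhds c)
  decay : ∀ c ∈ cSet, ∀ a ∈ aSet, ∃ C : ℝ, ∀ y, 64 < y →
    |1 - q c a y| ≤ C ∧ |deriv (q c a) y| ≤ C / y ∧ |deriv (deriv (q c a)) y| ≤ C / y ^ 2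
  e1_size : ∀ c ∈ cSet, |e1 c 0| ≤ 1 / 200000000
  e2_size : ∀ c ∈ cSet, |e2 c 0| ≤ 1 / 200000000
  e1_lip : ∀ c ∈ cSet, ∀ c' ∈ cSet, ∀ a ∈ aSet, ∀ a' ∈ aSet,
    |e1 c a - e1 c' a'| ≤ 1 / 100 * |a - a'| + 1 / 10000 * |c - c'|
  e2_lip : ∀ c ∈ cSet, ∀ c' ∈ cSet, ∀ a ∈ aSet, ∀ a' ∈ aSet,
    |e2 c a - e2 c' a'| ≤ 1 / 200 * |a - a'| + 1 / 10000 * |c - c'|

/-- What Soliton A delivers: a smooth connection from the origin with matching data at `64`. -/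
def InnerTarget : Prop :=
  ∀ T : TailMap, ∃ c ∈ cSet, ∃ a ∈ aSet, ∃ g q : ℝ → ℝ,
    ContDiffOn ℝ ∞ g (Icc 0 64) ∧
    (∀ y ∈ Icc (0 : ℝ) 64, q y = 1 - y * g y) ∧
    (∀ y ∈ Icc (0 : ℝ) 64, 0 < q y) ∧
    (∃ y₀, 0 < y₀ ∧ y₀ ≤ 64 ∧ q y₀ ≤ 1 / 10) ∧
    (∀ y ∈ Ioo (0 : ℝ) 64, ode c q y = 0) ∧
    q 64 = T.q c a 64 ∧
    derivWithin q (Icc 0 64) 64 = derivWithin (T.q c a) (Ici 64) 64 ∧
    derivWithin (derivWithin q (Icc 0 64)) (Icc 0 64) 64 =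
      derivWithin (derivWithin (T.q c a) (Ici 64)) (Ici 64) 64

end Vale.Agent.P264.Soliton
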