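import Mathlib
import Vale.Agent.P264.Soliton.Tail.Map

/-!
Gluing the connection on `[0, 64]` to the tail: a certified connection yields a shrinker.
-/

namespace Vale.Agent.P264.Soliton

open Set Filter
open scoped Topology ContDiff
open Tail

/-- `f` up to `64`, `g` beyond. -/
noncomputable def piece (f g : ℝ → ℝ) (y : ℝ) : ℝ := if y ≤ 64 then f y else g y

theorem piece_left {f g : ℝ → ℝ} {y : ℝ} (hy : y ≤ 64) : piece f g y = f y := if_pos hy

theorem piece_right {f g : ℝ → ℝ} (h : f 64 = g 64) {y : ℝ} (hy : 64 ≤ y) :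
    piece f g y = g y := by
  rcases hy.eq_or_lt with rfl | hy'
  · rw [piece_left le_rfl, h]
  · exact if_neg hy'.not_ge

theorem piece_deriv {fl fr gl gr : ℝ → ℝ}
    (hl : ∀ y ∈ Icc (0 : ℝ) 64, HasDerivWithinAt fl (gl y) (Icc 0 64) y)
    (hr : ∀ y, 64 ≤ y → HasDerivWithinAt fr (gr y) (Ici 64) y)
    (hf : fl 64 = fr 64) (hg : gl 64 = gr 64) {y : ℝ} (hy : 0 < y) :
    HasDerivAt (piece fl fr) (piece gl gr y) y := by
  rcases lt_trichotomy y 64 with h | rfl | h
  · rw [piece_left h.le]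
    exact ((hl y ⟨hy.le, h.le⟩).hasDerivAt (Icc_mem_nhds hy h)).congr_of_eventuallyEq
      (eventually_of_mem (Iio_mem_nhds h) fun t ht => piece_left (le_of_lt ht))
  · have a := (hl 64 ⟨hy.le, le_rfl⟩).congr (fun t ht => piece_left (g := fr) ht.2)
      (piece_left le_rfl)
    have b := (hr 64 le_rfl).congr (fun t ht => piece_right hf ht) (piece_right hf le_rfl)
    rw [← hg] at b
    rw [piece_left le_rfl]
    refine (a.union b).hasDerivAt (mem_of_superset (Ioi_mem_nhds hy) fun t ht => ?_)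
    rcases le_total t 64 with h' | h'
    · exact Or.inl ⟨le_of_lt ht, h'⟩
    · exact Or.inr h'
  · rw [piece_right hg h.le]
    exact ((hr y h.le).hasDerivAt (Ici_mem_nhds h)).congr_of_eventuallyEq
      (eventually_of_mem (Ioi_mem_nhds h) fun t ht => piece_right hf (le_of_lt ht))

theorem exists_shrinker_of_inner (hA : InnerTarget) : Nonempty Shrinker := by
  obtain ⟨c, hc, a, ha, g, q, hg, hqg, hqpos, ⟨y₀, hy₀, hy₀', hneck⟩, hode, hm0, hm1, hm2⟩ :=
    hA tailMap
  set I : Set ℝ := Icc 0 64 with hI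
  have hUI : UniqueDiffOn ℝ I := uniqueDiffOn_Icc (by norm_num)
  set d1 := derivWithin q I with hd1
  set d2 := derivWithin d1 I with hd2
  set d3 := derivWithin d2 I with hd3
  have hsq : ContDiffOn ℝ ∞ q I :=
    (contDiffOn_const.sub (contDiffOn_id.mul hg)).congr fun y hy => hqg y hy
  have hs1 : ContDiffOn ℝ ∞ d1 I := hsq.derivWithin hUI (by simp)
  have hs2 : ContDiffOn ℝ ∞ d2 I := hs1.derivWithin hUI (by simp)
  have hs3 : ContDiffOn ℝ ∞ d3 I := hs2.derivWithin hUI (by simp)
  have hd : ∀ {f : ℝ → ℝ}, ContDiffOn ℝ ∞ f I → ∀ y ∈ I,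
      HasDerivWithinAt f (derivWithin f I y) I y := fun hf y hy =>
    ((hf.differentiableOn (by simp)) y hy).hasDerivWithinAt
  have e1 : q 64 = qT c a 64 := hm0
  have e2 : d1 64 = qT1 c a 64 := hm1.trans (derivWithin_qT le_rfl)
  have e3 : d2 64 = qT2 c a 64 := hm2.trans (derivWithin2_qT c a)
  have heq : EqOn d3 (fun y => third c y (q y) (d1 y) (d2 y)) (Ioc 0 64) := by
    refine EqOn.of_subset_closure (s := Ioo 0 64) (fun y hy => ?_) (hs3.continuousOn.mono
      Ioc_subset_Icc_self) ?_ Ioo_subset_Ioc_self ?_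
    · have m : Ioo (0 : ℝ) 64 ∈ 𝓝 y := Ioo_mem_nhds hy.1 hy.2
      have f1 : deriv q =ᶠ[𝓝 y] d1 := eventually_of_mem m fun t ht =>
        (derivWithin_of_mem_nhds (Icc_mem_nhds ht.1 ht.2)).symm
      have f2 : deriv (deriv q) =ᶠ[𝓝 y] d2 := f1.deriv.trans (eventually_of_mem m fun t ht =>
        (derivWithin_of_mem_nhds (Icc_mem_nhds ht.1 ht.2)).symm)
      have f3 : deriv (deriv (deriv q)) y = d3 y := f2.deriv_eq.trans
        (derivWithin_of_mem_nhds (Icc_mem_nhds hy.1 hy.2)).symm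
      have h := hode y hy
      rw [ode, f3, f2.eq_of_nhds, f1.eq_of_nhds] at h
      simp only [third]
      rw [eq_div_iff hy.1.ne']
      linarith
    · have c0 := hsq.continuousOn.mono (Ioc_subset_Icc_self (a := (0:ℝ)) (b := 64))
      have c1 := hs1.continuousOn.mono (Ioc_subset_Icc_self (a := (0:ℝ)) (b := 64))
      have c2 := hs2.continuousOn.mono (Ioc_subset_Icc_self (a := (0:ℝ)) (b := 64))
      unfold third
      exact ((((continuousOn_const.mul c2).add ((continuousOn_const.mul c1).div continuousOn_id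
        fun y hy => hy.1.ne')).add ((continuousOn_const.mul (continuousOn_const.sub c0)).div
          (continuousOn_id.pow 2) fun y hy => pow_ne_zero _ hy.1.ne')).add
        (continuousOn_const.sub (continuousOn_const.div (continuousOn_const.mul c0)
          fun y hy => mul_ne_zero two_ne_zero (hqpos y (Ioc_subset_Icc_self hy)).ne'))).neg.div
        continuousOn_id fun y hy => hy.1.ne'
    · rw [closure_Ioo (by norm_num)]
      exact Ioc_subset_Icc_self
  have e4 : d3 64 = qT3 c a 64 := by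
    rw [heq ⟨by norm_num, le_rfl⟩, qT_eqn hc ha le_rfl]
    simp only [e1, e2, e3]
  set Q := piece q (qT c a) with hQ
  set Q1 := piece d1 (qT1 c a) with hQ1
  set Q2 := piece d2 (qT2 c a) with hQ2
  have hQd : ∀ y, 0 < y → HasDerivAt Q (Q1 y) y := fun y hy =>
    piece_deriv (hd hsq) (fun t ht => (qT_deriv c a (by linarith)).hasDerivWithinAt) e1 e2 hy
  have hQ1d : ∀ y, 0 < y → HasDerivAt Q1 (Q2 y) y := fun y hy =>
    piece_deriv (hd hs1) (fun t ht => (qT1_deriv c a (by linarith)).hasDerivWithinAt) e2 e3 hy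
  have hQ2d : ∀ y, 0 < y → HasDerivAt Q2 (third c y (Q y) (Q1 y) (Q2 y)) y := by
    intro y hy
    have := piece_deriv (hd hs2)
      (fun t ht => (qT2_deriv c a (by linarith)).hasDerivWithinAt) e3 e4 hy
    refine this.congr_deriv ?_
    rcases le_or_gt y 64 with h | h
    · simp only [hQ, hQ1, hQ2, piece_left h]
      exact heq ⟨hy, h⟩
    · simp only [hQ, hQ1, hQ2, piece, if_neg h.not_ge]
      exact qT_eqn hc ha h.le
  have hQpos : ∀ y, 0 ≤ y → 0 < Q y := by
    intro y hy
    rcases le_or_gt y 64 with h | h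
    · rw [hQ, piece_left h]; exact hqpos y ⟨hy, h⟩
    · rw [hQ, piece_right e1 h.le]; linarith [qT_lower hc ha h.le]
  have hQsmooth : ContDiffOn ℝ ∞ Q (Ioi 0) :=
    contDiffOn_of_third (c := c) (q1 := Q1) (q2 := Q2) isOpen_Ioi.uniqueDiffOn (fun y hy => hy)
      (fun y hy => hQpos y (le_of_lt hy)) (fun y hy => (hQd y hy).hasDerivWithinAt)
      (fun y hy => (hQ1d y hy).hasDerivWithinAt) (fun y hy => (hQ2d y hy).hasDerivWithinAt)
  have hQ1smooth : ContDiffOn ℝ ∞ Q1 (Ioi 0) :=
    (hQsmooth.deriv_of_isOpen isOpen_Ioi (by simp)).congr fun y hy => ((hQd y hy).deriv).symm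
  have hQ2smooth : ContDiffOn ℝ ∞ Q2 (Ioi 0) :=
    (hQ1smooth.deriv_of_isOpen isOpen_Ioi (by simp)).congr fun y hy => ((hQ1d y hy).deriv).symm
  have extend : ∀ {f fl : ℝ → ℝ}, ContDiffOn ℝ ∞ f (Ioi 0) → ContDiffOn ℝ ∞ fl I →
      (∀ y ∈ I, f y = fl y) → ContDiffOn ℝ ∞ f (Ici 0) := by
    intro f fl hf hfl he y hy
    rcases (mem_Ici.1 hy).eq_or_lt with rfl | hy'
    · exact ((hfl.congr he) 0 ⟨le_rfl, by norm_num⟩).mono_of_mem_nhdsWithin
        (Icc_mem_nhdsGE_of_mem ⟨le_rfl, by norm_num⟩)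
    · exact ((hf y hy').contDiffAt (Ioi_mem_nhds hy')).contDiffWithinAt
  set S : ℝ → ℝ := piece (fun y => 56 * g y - 16 * d1 y - y * d2 y)
    (fun y => 56 * (1 - qT c a y) / y - 16 * qT1 c a y - y * qT2 c a y) with hS
  have hSf : ∀ y, 0 < y → S y = 56 * (1 - Q y) / y - 16 * Q1 y - y * Q2 y := by
    intro y hy
    rcases le_or_gt y 64 with h | h
    · simp only [hS, hQ, hQ1, hQ2, piece_left h, hqg y ⟨hy.le, h⟩]
      field_simp
      ring
    · simp only [hS, hQ, hQ1, hQ2, piece, if_neg h.not_ge]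
  have hSpos : ContDiffOn ℝ ∞ S (Ioi 0) := by
    refine ContDiffOn.congr ?_ hSf
    exact (((contDiffOn_const.mul (contDiffOn_const.sub hQsmooth)).div contDiffOn_id
      fun y hy => ne_of_gt hy).sub (contDiffOn_const.mul hQ1smooth)).sub
      (contDiffOn_id.mul hQ2smooth)
  have hSsmooth : ContDiffOn ℝ ∞ S (Ici 0) :=
    extend hSpos (fl := fun y => 56 * g y - 16 * d1 y - y * d2 y)
      (((contDiffOn_const.mul hg).sub (contDiffOn_const.mul hs1)).sub (contDiffOn_id.mul hs2))
      fun y hy => piece_left hy.2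
  refine ⟨{ q := Q, S := S, c := c, y₀ := y₀,
            q_smooth := extend hQsmooth hsq fun y hy => piece_left hy.2,
            S_smooth := hSsmooth,
            q_zero := ?_, q_pos := hQpos, c_pos := by linarith [hc.1],
            S_eq := ?_, shrink := ?_, q_lim := ?_, S_decay := ?_, y₀_pos := hy₀,
            neck := by rw [hQ, piece_left hy₀']; exact hneck }⟩
  · rw [hQ, piece_left (by norm_num), hqg 0 ⟨le_rfl, by norm_num⟩]
    ring
  · intro y hy
    have m : Ioi (0 : ℝ) ∈ 𝓝 y := Ioi_mem_nhds hy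
    have f1 : deriv (fun z => z ^ 7 * (z * Q z)) =ᶠ[𝓝 y]
        fun z => 8 * z ^ 7 * Q z + z ^ 8 * Q1 z := by
      refine eventually_of_mem m fun z hz => HasDerivAt.deriv ?_
      refine ((hasDerivAt_pow 7 z).mul ((hasDerivAt_id' z).mul (hQd z hz))).congr_deriv ?_
      simp only [Pi.mul_apply]
      push_cast
      ring
    have f2 : HasDerivAt (fun z => 8 * z ^ 7 * Q z + z ^ 8 * Q1 z)
        (56 * y ^ 6 * Q y + 16 * y ^ 7 * Q1 y + y ^ 8 * Q2 y) y := by
      refine ((((hasDerivAt_pow 7 y).const_mul 8).mul (hQd y hy)).add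
        ((hasDerivAt_pow 8 y).mul (hQ1d y hy))).congr_deriv ?_
      push_cast
      ring
    rw [hSf y hy, scal, f1.deriv_eq, f2.deriv]
    field_simp
    ring
  · intro y hy
    have e : S =ᶠ[𝓝 y] fun z => 56 * (1 - Q z) / z - 16 * Q1 z - z * Q2 z :=
      eventually_of_mem (Ioi_mem_nhds hy) fun z hz => hSf z hz
    have h := ((((hQd y hy).const_sub 1).const_mul 56).div (hasDerivAt_id' y) hy.ne').sub
      ((hQ1d y hy).const_mul 16) |>.sub ((hasDerivAt_id' y).mul (hQ2d y hy))
    refine (e.deriv_eq.trans (HasDerivAt.deriv h)).trans ?_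
    rw [third]
    have := (hQpos y hy.le).ne'
    have : c ≠ 0 := by linarith [hc.1]
    field_simp
    ring
  · refine (tailMap.lim c hc a ha).congr' (eventually_atTop.2 ⟨64, fun y hy => ?_⟩)
    exact (piece_right e1 hy).symm
  · obtain ⟨B, hB⟩ := isCompact_Icc.exists_bound_of_continuousOn
      (hSsmooth.continuousOn.mono (Icc_subset_Ici_self : Icc (0 : ℝ) 64 ⊆ Ici 0))
    obtain ⟨C, hC⟩ := tailMap.decay c hc a ha
    have hB0 : 0 ≤ B := (norm_nonneg _).trans (hB 0 ⟨le_rfl, by norm_num⟩)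
    have hC0 : 0 ≤ C := (abs_nonneg _).trans (hC 65 (by norm_num)).1
    refine ⟨65 * B + 146 * C, fun y hy => ?_⟩
    rw [le_div_iff₀ (by linarith)]
    rcases le_or_gt y 64 with h | h
    · have hb := hB y ⟨hy, h⟩
      rw [Real.norm_eq_abs] at hb
      nlinarith [mul_le_mul hb (show 1 + y ≤ 65 by linarith) (by linarith) hB0]
    · have hy0 : 0 < y := by linarith
      obtain ⟨b0, b1, b2⟩ := hC y h
      obtain ⟨d1', d2', -⟩ := derivs_qT c a hy0
      change |deriv (qT c a) y| ≤ _ at b1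
      change |deriv (deriv (qT c a)) y| ≤ _ at b2
      change |1 - qT c a y| ≤ _ at b0
      rw [d1'] at b1
      rw [d2'] at b2
      have hk : |S y| ≤ 73 * C / y := by
        simp only [hS, piece, if_neg h.not_ge]
        refine (abs_sub _ _).trans ((add_le_add (abs_sub _ _) le_rfl).trans ?_)
        rw [abs_div, abs_mul, abs_mul, abs_mul, Nat.abs_ofNat, Nat.abs_ofNat, abs_of_pos hy0]
        have t1 : 56 * |1 - qT c a y| / y ≤ 56 * C / y :=
          div_le_div_of_nonneg_right (by linarith) hy0.le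
        have t2 : y * |qT2 c a y| ≤ C / y :=
          (mul_le_mul_of_nonneg_left b2 hy0.le).trans (le_of_eq (by field_simp))
        calc 56 * |1 - qT c a y| / y + 16 * |qT1 c a y| + y * |qT2 c a y|
            ≤ 56 * C / y + 16 * (C / y) + C / y :=
              add_le_add (add_le_add t1 (by linarith)) t2
          _ = 73 * C / y := by ring
      calc |S y| * (1 + y) ≤ 73 * C / y * (2 * y) :=
            mul_le_mul hk (by linarith) (by linarith) (by positivity)
        _ = 146 * C := by field_simp; ring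
        _ ≤ _ := by linarith

end Vale.Agent.P264.Soliton
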